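import Vale.Agent.P241GD.Deg
import Vale.Agent.P241GL.A1
import Vale.Agent.P241GT.Tri

/-!
# P241G, block A: the rows A1 and A2
-/

open CategoryTheory MonoidalCategory Limits

universe v' u u'

namespace Vale.Agent.P241GD

open P251.H P251.H.GS.StabInput P241GR

variable {M : Type u} [Category.{0} M] [MonoidalCategory M] [SymmetricCategory M]
  [MonoidalClosed M] [HasZeroMorphisms M] [HasColimitsOfSize.{0, 0} M] [GS.StabInput M]
  (GG : ObjectProperty M) [IsTest GG] {C : Type u'} [Category.{v'} C] (Q : M ⥤ C)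
  [Q.IsLocalization (piW GG)]

/-- Row A1. -/
theorem a1 : A1 GG Q := P241GL.a1_of GG Q (P241GT.pre GG Q)

/-- Row A2. -/
theorem a2 [Preadditive C] [HasCoproducts.{0} C] : A2 GG Q where
  zero := q_zero GG Q
  cpt hA hF := P241GL.cpt GG Q hA hF
  gen Z h := P241GL.gen GG Q Z h
  deg := deg GG Q
  tri := P241GT.tri GG Q

end Vale.Agent.P241GD
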