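import Vale.Agent.P241GR.A
import Vale.Agent.P241GS.Grp
import Vale.Agent.P251.H.Cof.LocCoprod

/-!
# P241G, block A: the self-map of degree `m` of the circle induces `m` in the localization
-/

open CategoryTheory MonoidalCategory Limits OnePoint Set Real

universe v' u u'

namespace Vale.Agent.P241GD

open P251 P251.H P251.St P251.G P251.G.LC P241 P241Z

section abstract

variable {C : Type u'} [Category.{v'} C] [Preadditive C] (F : LC ⥤ C)
  (h0 : ∀ X Y : LC, F.map (0 : X ⟶ Y) = 0)
  (hx : ∀ (X Y : LC) (T : C) (φ ψ : F.obj (sum X Y) ⟶ T),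
    F.map (sumInl X Y) ≫ φ = F.map (sumInl X Y) ≫ ψ →
      F.map (sumInr X Y) ≫ φ = F.map (sumInr X Y) ≫ ψ → φ = ψ)
  (hh : ∀ (X Y : LC) (f g : X ⟶ Y), LC.Homotopic f g → F.map f = F.map g)

include h0 hx in
theorem total (Y : LC) : F.map (sumDesc (𝟙 Y) 0) ≫ F.map (sumInl Y Y) +
    F.map (sumDesc 0 (𝟙 Y)) ≫ F.map (sumInr Y Y) = 𝟙 _ := by
  apply hx
  · rw [Preadditive.comp_add, ← Functor.map_comp_assoc, ← Functor.map_comp_assoc, sumInl_desc,
      sumInl_desc, h0, zero_comp, add_zero, F.map_id, Category.id_comp, Category.comp_id]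
  · rw [Preadditive.comp_add, ← Functor.map_comp_assoc, ← Functor.map_comp_assoc, sumInr_desc,
      sumInr_desc, h0, zero_comp, zero_add, F.map_id, Category.id_comp, Category.comp_id]

include h0 hx in
theorem map_join {X Y : LC} (f g : X ⟶ Y) (h : ∀ x, app f x = ∞ ∨ app g x = ∞) :
    F.map (H241.join f g h) = F.map f + F.map g := by
  have e0 : H241.join f g h = H241.split f g h ≫ sumDesc (𝟙 Y) (𝟙 Y) := by
    rw [H241.split_desc]
    apply app_ext
    intro x
    rw [H241.app_join, H241.app_join, Category.comp_id, Category.comp_id]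
  have e1 : H241.split f g h ≫ sumDesc (𝟙 Y) (0 : Y ⟶ Y) = f := by
    rw [H241.split_desc]
    apply app_ext
    intro x
    rw [H241.app_join, comp_zero, H241.joinFun_of_right (app_zero _), Category.comp_id]
  have e2 : H241.split f g h ≫ sumDesc (0 : Y ⟶ Y) (𝟙 Y) = g := by
    rw [H241.split_desc]
    apply app_ext
    intro x
    rw [H241.app_join, comp_zero, H241.joinFun_of_left (app_zero _), Category.comp_id]
  have i1 : F.map (sumInl Y Y) ≫ F.map (sumDesc (𝟙 Y) (𝟙 Y)) = 𝟙 _ := by
    rw [← Functor.map_comp, sumInl_desc, F.map_id]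
  have i2 : F.map (sumInr Y Y) ≫ F.map (sumDesc (𝟙 Y) (𝟙 Y)) = 𝟙 _ := by
    rw [← Functor.map_comp, sumInr_desc, F.map_id]
  rw [e0, Functor.map_comp, ← Category.id_comp (F.map (sumDesc (𝟙 Y) (𝟙 Y))), ← total F h0 hx Y,
    Preadditive.add_comp, Preadditive.comp_add, Category.assoc, Category.assoc, i1, i2,
    Category.comp_id, Category.comp_id, ← Functor.map_comp, ← Functor.map_comp, e1, e2]

include h0 hx hh in
theorem map_lifts (m : ℕ) : ∀ (a : ℝ → ℝ) (d : Map Rr Rr), Continuous a → a 0 = 0 →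
    a π = m * π → Lifts a d → F.map (toHom d) = m • 𝟙 (F.obj RR) := by
  induction m with
  | zero =>
    intro a d ha h0' h1 hd
    have hz : Lifts (fun _ => 0) (ofHom (X := Rr) (Y := Rr) (0 : RR ⟶ RR)) :=
      fun θ _ => (circ_of_eq sin_zero).symm
    have h2 := hd.homotopic hz ha continuous_const (by rw [h0', sin_zero]) (by simp [h1])
      h0'.symm (by simp [h1])
    rw [hh _ _ _ _ ((homotopic_iff' _ _).1 h2), zero_smul]
    exact h0 RR RR
  | succ m ih =>
    intro a d ha h0' h1 hd
    have hm : (0 : ℝ) ≤ m * π := mul_nonneg (Nat.cast_nonneg m) pi_pos.le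
    have hm1 : (m : ℝ) * π ≤ a π := by
      rw [h1]
      push_cast
      linarith [pi_pos]
    have c1 : Continuous fun θ => min (a θ) (m * π) := ha.min continuous_const
    have c2 : Continuous fun θ => max (a θ) (m * π) - m * π :=
      (ha.max continuous_const).sub continuous_const
    have a0 : min (a 0) (m * π) = 0 := by rw [h0', min_eq_left hm]
    have a1 : min (a π) (m * π) = m * π := min_eq_right hm1
    have b0 : max (a 0) (m * π) - m * π = 0 := by rw [h0', max_eq_right hm, sub_self]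
    have b1 : max (a π) (m * π) - m * π = π := by
      rw [max_eq_left hm1, h1]
      push_cast
      ring
    obtain ⟨u, hu⟩ := exists_lifts c1 (by rw [a0, sin_zero]) (by rw [a1, sin_nat_mul_pi])
    obtain ⟨v, hv⟩ := exists_lifts c2 (by rw [b0, sin_zero]) (by rw [b1, sin_pi])
    have hid : Lifts id (⟨id, continuous_id, rfl⟩ : Map Rr Rr) := fun θ _ => rfl
    have e1 := ih _ u c1 a0 a1 hu
    have e2 : F.map (toHom v) = 𝟙 (F.obj RR) := by
      rw [hh _ _ _ _ ((homotopic_iff' _ _).1 (hv.homotopic hid c2 continuous_id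
        (by rw [b0, sin_zero]) (by rw [b1, sin_pi]) b0.symm b1.symm))]
      exact F.map_id RR
    have key : ∀ y, (v.toFun y = ∞ ∧ d.toFun y = u.toFun y) ∨
        (u.toFun y = ∞ ∧ d.toFun y = v.toFun y) := by
      intro y
      rw [hu.eq, hv.eq, hd.eq]
      rcases le_total (a (sec y)) (m * π) with h | h
      · left
        rw [max_eq_right h, sub_self, min_eq_left h]
        exact ⟨circ_of_eq sin_zero, rfl⟩
      · right
        rw [max_eq_left h, min_eq_right h]
        refine ⟨circ_nat_mul_pi m, ?_⟩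
        rw [← circ_add_int_mul_pi (a (sec y) - m * π) m]
        congr 1
        push_cast
        ring
    have hdis : ∀ y, app (toHom u) y = ∞ ∨ app (toHom v) y = ∞ := fun y =>
      (key y).elim (fun h => Or.inr h.1) fun h => Or.inl h.1
    have e3 : toHom d = H241.join (toHom u) (toHom v) hdis := by
      refine app_ext fun y => ?_
      rcases key y with h | h
      · exact h.2.trans (H241.joinFun_of_right (f := app (toHom u)) (g := app (toHom v)) h.1).symm
      · exact h.2.trans (H241.joinFun_of_left (f := app (toHom u)) (g := app (toHom v)) h.1).symm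
    rw [e3, map_join F h0 hx, e1, e2]
    exact (succ_nsmul _ m).symm

include h0 hx hh in
theorem map_isDeg {m : ℕ} {d : Map Rr Rr} (h : IsDeg m d) :
    F.map (toHom d) = m • 𝟙 (F.obj RR) :=
  map_lifts F h0 hx hh m (fun θ => m * θ) d (continuous_const.mul continuous_id) (mul_zero _) rfl
    fun θ _ => h θ

end abstract

open P251.H.GS.StabInput

variable {M : Type u} [Category.{0} M] [MonoidalCategory M] [SymmetricCategory M]
  [MonoidalClosed M] [HasZeroMorphisms M] [HasColimitsOfSize.{0, 0} M] [GS.StabInput M]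
  (GG : ObjectProperty M) [IsTest GG] {C : Type u'} [Category.{v'} C] (Q : M ⥤ C)
  [hQ : Q.IsLocalization (piW GG)]

include hQ

theorem q_htpy {X Y : M} {f g : X ⟶ Y} (h : MHtpy f g) : Q.map f = Q.map g := by
  let _ := cofCatM (piW GG)
  have : Q.IsLocalization (CofCat.W (C := M)) := hQ
  exact CofCat.map_eq_of_Htpy Q h

theorem q_isZero {Z : M} (hZ : IsZero Z) : IsZero (Q.obj Z) := by
  let _ := cofCatM (piW GG)
  have : Q.IsLocalization (CofCat.W (C := M)) := hQ
  exact CofCat.isZero_map Q hZ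

theorem q_ext {Z X Y P : M} {f : Z ⟶ X} {g : Z ⟶ Y} {a : X ⟶ P} {b : Y ⟶ P} (hZ : IsZero Z)
    (h : IsPushout f g a b) {T : C} {φ ψ : Q.obj P ⟶ T} (h1 : Q.map a ≫ φ = Q.map a ≫ ψ)
    (h2 : Q.map b ≫ φ = Q.map b ≫ ψ) : φ = ψ := by
  let _ := cofCatM (piW GG)
  have : Q.IsLocalization (CofCat.W (C := M)) := hQ
  have := CofCat.preservesBinaryCoproducts Q
  have hc : IsColimit (BinaryCofan.mk a b) :=
    BinaryCofan.isColimitMk (fun s => h.desc s.inl s.inr (hZ.eq_of_src _ _))
      (fun s => h.inl_desc _ _ _) (fun s => h.inr_desc _ _ _)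
      fun s m e1 e2 => h.hom_ext (e1.trans (h.inl_desc _ _ _).symm)
        (e2.trans (h.inr_desc _ _ _).symm)
  exact BinaryCofan.IsColimit.hom_ext (mapIsColimitOfPreservesOfIsColimit Q a b hc) h1 h2

variable [Preadditive C]

theorem q_zero (X Y : M) : Q.map (0 : X ⟶ Y) = 0 := by
  have hZ := isZero_empty (M := M)
  rw [← zero_comp (f := hZ.to_ Y), Q.map_comp, (q_isZero GG Q hZ).eq_of_src (Q.map (hZ.to_ Y)) 0,
    comp_zero]

/-- The field `deg` of row A2. -/
theorem deg (A : M) (m : ℕ) (d : Map Rr Rr) (h : IsDeg m d) :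
    Q.map (A ◁ (J M).map (toHom d)) = m • 𝟙 (Q.obj (A ⊗ S M)) := by
  refine map_isDeg (J M ⋙ tensorLeft A ⋙ Q) (fun X Y => ?_) (fun X Y T φ ψ h1 h2 => ?_)
    (fun X Y f g hfg => ?_) h
  · change Q.map (A ◁ (J M).map (0 : X ⟶ Y)) = 0
    rw [← Category.comp_id (A ◁ _), map_zero_comp, q_zero GG Q]
  · exact q_ext GG Q (isZero_tensor_left (isZero_empty (M := M)) A) (isPushout_tsum A X Y) h1 h2
  · exact q_htpy GG Q ((MHtpy.map hfg).whiskerLeft A)

end Vale.Agent.P241GD
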